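import Vale.Agent.P054A.Final

/-- Distinct distances in every dimension `d ≥ 3`: `n` points determine at least
`n ^ (2/d - ε)` distinct distances. -/
theorem Vale.Agent.Results.P054.AllDim.result :
    ∀ d : ℕ, 3 ≤ d → ∀ ε : ℝ, 0 < ε → ∃ n₀ : ℕ, ∀ P : Finset (EuclideanSpace ℝ (Fin d)),
      n₀ ≤ P.card → (P.card : ℝ) ^ (2 / (d : ℝ) - ε) ≤
        (Set.ncard {r : ℝ | ∃ p ∈ P, ∃ q ∈ P, p ≠ q ∧ r = dist p q} : ℝ) :=
  fun d hd => Vale.Agent.P054A.thm_all d (by omega)
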