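import Vale.Agent.P054.Final

/-- Distinct distances in three dimensions: `n` points determine at least `n ^ (2/3 - ε)`
distinct distances. -/
theorem Vale.Agent.Results.P054.DimThree.result :
    ∀ ε : ℝ, 0 < ε → ∃ n₀ : ℕ, ∀ P : Finset (EuclideanSpace ℝ (Fin 3)), n₀ ≤ P.card →
      (P.card : ℝ) ^ (2 / 3 - ε) ≤
        (Set.ncard {r : ℝ | ∃ p ∈ P, ∃ q ∈ P, p ≠ q ∧ r = dist p q} : ℝ) :=
  Vale.Agent.P054.main'
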