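import Vale.Agent.P054S.TWin

/-- The higher-dimensional distinct distances conjecture for `d ≥ 4`. -/
theorem Vale.Agent.Results.P054.SharpHigh.result :
    ∀ d : ℕ, 4 ≤ d → ∃ c : ℝ, 0 < c ∧ ∀ P : Finset (EuclideanSpace ℝ (Fin d)), 2 ≤ P.card →
      c * (P.card : ℝ) ^ (2 / (d : ℝ)) ≤
        (Set.ncard {r : ℝ | ∃ p ∈ P, ∃ q ∈ P, p ≠ q ∧ r = dist p q} : ℝ) :=
  fun d hd => Vale.Agent.P054S.t_sharp_high d hd
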